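import Vale.Agent.Lib.P007.Family

namespace Vale.Agent.Lib.P007

open Polynomial

/-- Intermediate value lemma: the polynomial `∏_{j<d} (x - N (j+1))` takes every value `β` with
`|β| < N/2` at a point within `N/2` of each of its roots `N (l+1)`. -/
theorem exists_prod_eq_near (N : ℝ) (hN : 2 ≤ N) (β : ℝ) (hβ : |β| < N / 2) (d l : ℕ)
    (hl : l < d) :
    ∃ ξ : ℝ, |ξ - N * ((l : ℝ) + 1)| < N / 2 ∧
      ∏ j ∈ Finset.range d, (ξ - N * ((j : ℝ) + 1)) = β := by
  set F : ℝ → ℝ := fun x => ∏ j ∈ Finset.range d, (x - N * ((j : ℝ) + 1)) with hF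
  have hFc : Continuous F := by
    rw [hF]
    exact continuous_finsetProd _ (fun j _ => by fun_prop)
  set a : ℝ := N * ((l : ℝ) + 1) - N / 2 with ha
  set b : ℝ := N * ((l : ℝ) + 1) + N / 2 with hb
  have hab : a ≤ b := by rw [ha, hb]; linarith
  have hN2 : (1 : ℝ) ≤ N / 2 := by linarith
  -- every factor has absolute value at least N/2 at both endpoints
  have hfa : ∀ j : ℕ, N / 2 ≤ |a - N * ((j : ℝ) + 1)| := by
    intro j
    rcases Nat.lt_or_ge l j with h | h
    · have h1 : (l : ℝ) + 1 ≤ (j : ℝ) := by exact_mod_cast h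
      rw [abs_of_nonpos (by rw [ha]; nlinarith)]
      rw [ha]; nlinarith
    · rcases Nat.eq_or_lt_of_le h with h2 | h2
      · subst h2
        rw [ha]
        have : N * ((j : ℝ) + 1) - N / 2 - N * ((j : ℝ) + 1) = -(N / 2) := by ring
        rw [this, abs_neg, abs_of_nonneg (by linarith)]
      · have h1 : (j : ℝ) + 1 ≤ (l : ℝ) := by exact_mod_cast h2
        rw [abs_of_nonneg (by rw [ha]; nlinarith)]
        rw [ha]; nlinarith
  have hfb : ∀ j : ℕ, N / 2 ≤ |b - N * ((j : ℝ) + 1)| := by
    intro j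
    rcases Nat.lt_or_ge j l with h | h
    · have h1 : (j : ℝ) + 1 ≤ (l : ℝ) := by exact_mod_cast h
      rw [abs_of_nonneg (by rw [hb]; nlinarith)]
      rw [hb]; nlinarith
    · rcases Nat.eq_or_lt_of_le h with h2 | h2
      · subst h2
        rw [hb]
        have : N * ((l : ℝ) + 1) + N / 2 - N * ((l : ℝ) + 1) = N / 2 := by ring
        rw [this, abs_of_nonneg (by linarith)]
      · have h1 : (l : ℝ) + 1 ≤ (j : ℝ) := by exact_mod_cast h2
        rw [abs_of_nonpos (by rw [hb]; nlinarith)]
        rw [hb]; nlinarith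
  have hpow : N / 2 ≤ (N / 2) ^ d := by
    have hd1 : 1 ≤ d := by omega
    calc N / 2 = (N / 2) ^ 1 := (pow_one _).symm
      _ ≤ (N / 2) ^ d := pow_le_pow_right₀ hN2 hd1
  have habsa : N / 2 ≤ |F a| := by
    rw [hF]
    simp only
    rw [Finset.abs_prod]
    calc N / 2 ≤ (N / 2) ^ d := hpow
      _ = ∏ _j ∈ Finset.range d, (N / 2) := by rw [Finset.prod_const, Finset.card_range]
      _ ≤ ∏ j ∈ Finset.range d, |a - N * ((j : ℝ) + 1)| :=
          Finset.prod_le_prod (fun _ _ => by linarith) (fun j _ => hfa j)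
  have habsb : N / 2 ≤ |F b| := by
    rw [hF]
    simp only
    rw [Finset.abs_prod]
    calc N / 2 ≤ (N / 2) ^ d := hpow
      _ = ∏ _j ∈ Finset.range d, (N / 2) := by rw [Finset.prod_const, Finset.card_range]
      _ ≤ ∏ j ∈ Finset.range d, |b - N * ((j : ℝ) + 1)| :=
          Finset.prod_le_prod (fun _ _ => by linarith) (fun j _ => hfb j)
  -- the product of the two endpoint values is negative
  have hneg : F a * F b < 0 := by
    rw [hF]
    simp only
    rw [← Finset.prod_mul_distrib]
    have hlmem : l ∈ Finset.range d := Finset.mem_range.mpr hl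
    rw [← Finset.mul_prod_erase _ _ hlmem]
    apply mul_neg_of_neg_of_pos
    · rw [ha, hb]; nlinarith
    · apply Finset.prod_pos
      intro j hj
      have hjl : j ≠ l := (Finset.mem_erase.mp hj).1
      rcases Nat.lt_or_gt_of_ne hjl with h | h
      · have h1 : (j : ℝ) + 1 ≤ (l : ℝ) := by exact_mod_cast h
        apply mul_pos
        · rw [ha]; nlinarith
        · rw [hb]; nlinarith
      · have h1 : (l : ℝ) + 1 ≤ (j : ℝ) := by exact_mod_cast h
        apply mul_pos_of_neg_of_neg
        · rw [ha]; nlinarith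
        · rw [hb]; nlinarith
  have hβ' := abs_lt.mp hβ
  -- find the point by the intermediate value theorem
  have hex : ∃ ξ ∈ Set.Icc a b, F ξ = β := by
    rcases lt_or_ge (F a) 0 with h | h
    · have hFb : 0 < F b := by
        by_contra hcon
        push Not at hcon
        nlinarith [mul_nonneg_of_nonpos_of_nonpos h.le hcon]
      have h1 : F a ≤ -(N / 2) := by
        have := habsa
        rw [abs_of_neg h] at this
        linarith
      have h2 : N / 2 ≤ F b := by
        have := habsb
        rw [abs_of_pos hFb] at this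
        exact this
      have := intermediate_value_Icc hab hFc.continuousOn
      exact this ⟨by linarith, by linarith⟩
    · have hFa : 0 < F a := by
        rcases h.lt_or_eq with h' | h'
        · exact h'
        · rw [← h'] at hneg; simp at hneg
      have hFb : F b < 0 := by
        by_contra hcon
        push Not at hcon
        nlinarith [mul_nonneg hFa.le hcon]
      have h1 : N / 2 ≤ F a := by
        have := habsa
        rw [abs_of_pos hFa] at this
        exact this
      have h2 : F b ≤ -(N / 2) := by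
        have := habsb
        rw [abs_of_neg hFb] at this
        linarith
      have := intermediate_value_Icc' hab hFc.continuousOn
      exact this ⟨by linarith, by linarith⟩
  obtain ⟨ξ, hξ, hFξ⟩ := hex
  refine ⟨ξ, ?_, hFξ⟩
  have hne_a : ξ ≠ a := by
    rintro rfl
    rw [hFξ] at habsa
    linarith
  have hne_b : ξ ≠ b := by
    rintro rfl
    rw [hFξ] at habsb
    linarith
  have h1 : a < ξ := lt_of_le_of_ne hξ.1 (Ne.symm hne_a)
  have h2 : ξ < b := lt_of_le_of_ne hξ.2 hne_b
  rw [abs_lt]
  constructor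
  · rw [ha] at h1; linarith
  · rw [hb] at h2; linarith

theorem aeval_towerF (d e : ℕ) (x : ℝ) :
    Polynomial.aeval x (towerF d e) =
      ∏ j ∈ Finset.range d, (x - (16 * (e : ℝ) + 16) * ((j : ℝ) + 1)) := by
  rw [towerF, map_prod]
  refine Finset.prod_congr rfl (fun j _ => ?_)
  rw [map_sub, Polynomial.aeval_X, Polynomial.aeval_C, eq_intCast]
  push_cast
  ring

theorem aeval_towerG (e : ℕ) (x : ℝ) :
    Polynomial.aeval x (towerG e) =
      ∏ k ∈ Finset.range e, (x - 8 * ((k : ℝ) + 1)) + 2 := by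
  rw [towerG, map_add, map_prod]
  congr 1
  · refine Finset.prod_congr rfl (fun j _ => ?_)
    rw [map_sub, Polynomial.aeval_X, Polynomial.aeval_C, eq_intCast]
    push_cast
    ring
  · rw [Polynomial.aeval_C, eq_intCast]
    norm_num

/-- `g_e (f_{d,e} (x))` has `e * d` distinct real roots. -/
theorem exists_real_roots (d e : ℕ) (_hd : 1 ≤ d) (_he : 1 ≤ e) :
    ∃ ρ : Fin (e * d) → ℝ, Function.Injective ρ ∧
      ∀ k, Polynomial.aeval (ρ k) ((towerG e).comp (towerF d e)) = 0 := by
  have hy : ∀ i : Fin e, ∃ y : ℝ, |y - 8 * (((i : ℕ) : ℝ) + 1)| < 8 / 2 ∧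
      ∏ k ∈ Finset.range e, (y - 8 * ((k : ℝ) + 1)) = -2 :=
    fun i => exists_prod_eq_near 8 (by norm_num) (-2) (by norm_num) e i i.2
  choose y hy1 hy2 using hy
  set N : ℝ := 16 * (e : ℝ) + 16 with hN
  have he0 : (0 : ℝ) ≤ (e : ℝ) := Nat.cast_nonneg e
  have hNge : 2 ≤ N := by rw [hN]; linarith
  have hNpos : 0 < N := by linarith
  have hybd : ∀ i : Fin e, |y i| < N / 2 := by
    intro i
    have h1 := abs_lt.mp (hy1 i)
    have h2 : (((i : ℕ) : ℝ)) + 1 ≤ (e : ℝ) := by exact_mod_cast i.2
    have h3 : (0 : ℝ) ≤ ((i : ℕ) : ℝ) := Nat.cast_nonneg _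
    rw [abs_lt, hN]
    constructor <;> nlinarith
  have hξ : ∀ (i : Fin e) (l : Fin d), ∃ ξ : ℝ, |ξ - N * (((l : ℕ) : ℝ) + 1)| < N / 2 ∧
      ∏ j ∈ Finset.range d, (ξ - N * ((j : ℝ) + 1)) = y i :=
    fun i l => exists_prod_eq_near N hNge (y i) (hybd i) d l l.2
  choose ξ hξ1 hξ2 using hξ
  -- separation of indices from closeness of centres
  have hsep : ∀ (M : ℝ), 0 < M → ∀ a b : ℕ,
      |M * ((a : ℝ) + 1) - M * ((b : ℝ) + 1)| < M → a = b := by
    intro M hM a b hab
    have h := abs_lt.mp hab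
    by_contra hne
    rcases Nat.lt_or_gt_of_ne hne with h1 | h1
    · have h2 : (a : ℝ) + 1 ≤ (b : ℝ) := by exact_mod_cast h1
      nlinarith
    · have h2 : (b : ℝ) + 1 ≤ (a : ℝ) := by exact_mod_cast h1
      nlinarith
  refine ⟨fun k => ξ (finProdFinEquiv.symm k).1 (finProdFinEquiv.symm k).2, ?_, ?_⟩
  · intro k k' hkk
    simp only at hkk
    have hl : (finProdFinEquiv.symm k).2 = (finProdFinEquiv.symm k').2 := by
      have h1 := abs_lt.mp (hξ1 (finProdFinEquiv.symm k).1 (finProdFinEquiv.symm k).2)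
      have h2 := abs_lt.mp (hξ1 (finProdFinEquiv.symm k').1 (finProdFinEquiv.symm k').2)
      rw [hkk] at h1
      apply Fin.ext
      apply hsep N hNpos
      rw [abs_lt]
      constructor <;> linarith
    have hyy : y (finProdFinEquiv.symm k).1 = y (finProdFinEquiv.symm k').1 := by
      rw [← hξ2 (finProdFinEquiv.symm k).1 (finProdFinEquiv.symm k).2,
        ← hξ2 (finProdFinEquiv.symm k').1 (finProdFinEquiv.symm k').2, hkk]
    have hi : (finProdFinEquiv.symm k).1 = (finProdFinEquiv.symm k').1 := by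
      have h1 := abs_lt.mp (hy1 (finProdFinEquiv.symm k).1)
      have h2 := abs_lt.mp (hy1 (finProdFinEquiv.symm k').1)
      rw [hyy] at h1
      apply Fin.ext
      apply hsep 8 (by norm_num)
      rw [abs_lt]
      constructor <;> linarith
    exact finProdFinEquiv.symm.injective (Prod.ext hi hl)
  · intro k
    rw [Polynomial.aeval_comp, aeval_towerF, aeval_towerG]
    have h1 := hξ2 (finProdFinEquiv.symm k).1 (finProdFinEquiv.symm k).2
    rw [hN] at h1
    rw [h1, hy2]
    norm_num

end Vale.Agent.Lib.P007
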