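import Vale.Agent.Lib.P007.Defs

namespace Vale.Agent.Lib.P007

open Matrix

/-- An order is a proper invertible fractional ideal of itself. -/
theorem isProperInvertibleIdeal_self {K : Type} [Field K] (O : Subring K) :
    IsProperInvertibleIdeal O O.toAddSubgroup := by
  refine ⟨fun a ha y hy => O.mul_mem ha hy,
    ⟨O.toAddSubgroup, fun a ha y hy => O.mul_mem ha hy, ?_⟩, ?_⟩
  · apply le_antisymm
    · rw [AddSubgroup.closure_le]
      rintro z ⟨x, hx, y, hy, rfl⟩
      exact O.mul_mem hx hy
    · intro x hx
      exact AddSubgroup.subset_closure ⟨x, hx, 1, O.one_mem, (mul_one x).symm⟩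
  · ext a
    constructor
    · intro h
      have h1 := h 1 O.one_mem
      rwa [mul_one] at h1
    · intro ha y hy
      exact O.mul_mem ha hy

/-- The matrix with entries `σ_j (b_i)`: the real embeddings of the basis of the order. -/
noncomputable def embMatrix {n : ℕ} (D : OrderDatum n) : Matrix (Fin n) (Fin n) ℝ :=
  Matrix.of fun i j => D.σ j (D.basis i)

theorem basis_indep_rat {n : ℕ} (D : OrderDatum n) : LinearIndependent ℚ D.basis :=
  (LinearIndependent.iff_fractionRing ℤ ℚ).1 D.basis_indep

/-- Every element of the field is a rational combination of the basis of the order. -/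
theorem exists_rat_repr {n : ℕ} [NeZero n] (D : OrderDatum n) (x : D.K) :
    ∃ q : Fin n → ℚ, x = ∑ i, q i • D.basis i := by
  have hcard : Fintype.card (Fin n) = Module.finrank ℚ D.K := by
    rw [D.finrank_eq, Fintype.card_fin]
  let B := basisOfLinearIndependentOfCardEqFinrank (basis_indep_rat D) hcard
  refine ⟨fun i => B.repr x i, ?_⟩
  have h := B.sum_repr x
  rw [coe_basisOfLinearIndependentOfCardEqFinrank] at h
  exact h.symm

theorem embMatrix_det_ne_zero {n : ℕ} [NeZero n] (D : OrderDatum n) :
    (embMatrix D).det ≠ 0 := by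
  intro h
  obtain ⟨v, hv0, hv⟩ := (Matrix.exists_mulVec_eq_zero_iff).2 h
  apply hv0
  -- the characters `σ_j` are linearly independent
  have hli : LinearIndependent ℝ (fun j : Fin n => (fun x : D.K => D.σ j x)) := by
    have h1 := linearIndependent_monoidHom D.K ℝ
    have hinj : Function.Injective (fun j : Fin n => ((D.σ j : D.K →+* ℝ) : D.K →* ℝ)) := by
      intro a b hab
      apply D.σ_injective
      ext x
      exact congrArg (fun f : D.K →* ℝ => f x) hab
    exact h1.comp _ hinj
  rw [Fintype.linearIndependent_iff] at hli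
  have hzero : ∑ j, v j • (fun x : D.K => D.σ j x) = 0 := by
    funext x
    obtain ⟨q, rfl⟩ := exists_rat_repr D x
    simp only [Finset.sum_apply, Pi.smul_apply, smul_eq_mul, Pi.zero_apply, map_sum]
    have key : ∀ i, ∑ j, D.σ j (D.basis i) * v j = 0 := by
      intro i
      have := congrFun hv i
      simpa [Matrix.mulVec, dotProduct, embMatrix] using this
    have h2 : ∀ j (i : Fin n), D.σ j (q i • D.basis i) = (q i : ℝ) * D.σ j (D.basis i) := by
      intro j i
      rw [Rat.smul_def, map_mul, map_ratCast]
    simp only [h2]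
    calc ∑ j, v j * ∑ i, (q i : ℝ) * D.σ j (D.basis i)
        = ∑ i, (q i : ℝ) * ∑ j, D.σ j (D.basis i) * v j := by
          simp only [Finset.mul_sum]
          rw [Finset.sum_comm]
          refine Finset.sum_congr rfl fun i _ => Finset.sum_congr rfl fun j _ => ?_
          ring
      _ = 0 := by simp [key]
  funext j
  exact hli v hzero j

/-- Non-vacuity of `packetSupport`: the packet of every order datum contains at least the class
of the order itself (scaled to covolume one). -/
theorem packetSupport_nonempty {n : ℕ} [NeZero n] (D : OrderDatum n) :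
    (packetSupport D).Nonempty := by
  have hd : (embMatrix D).det ≠ 0 := embMatrix_det_ne_zero D
  -- the sign vector
  let s : ℝ := if 0 < (embMatrix D).det then 1 else -1
  let w : Fin n → ℝ := fun j => if j = 0 then s else 1
  have hs : s = 1 ∨ s = -1 := by
    by_cases h : 0 < (embMatrix D).det <;> simp [s, h]
  have hw : ∀ j, w j = 1 ∨ w j = -1 := by
    intro j
    by_cases h : j = 0
    · simp only [w, h, if_true]; exact hs
    · simp [w, h]
  have hprod : ∏ j, w j = s := by
    rw [Finset.prod_eq_single (0 : Fin n)]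
    · simp [w]
    · intro j _ hj; simp [w, hj]
    · intro h; exact absurd (Finset.mem_univ _) h
  have hsd : s * (embMatrix D).det = |(embMatrix D).det| := by
    by_cases h : 0 < (embMatrix D).det
    · simp [s, h, abs_of_pos h]
    · have h' : (embMatrix D).det < 0 := lt_of_le_of_ne (not_lt.1 h) hd
      simp [s, h, abs_of_neg h']
  let c : ℝ := |(embMatrix D).det| ^ (-(1 : ℝ) / n)
  have habs : 0 < |(embMatrix D).det| := abs_pos.2 hd
  have hc : 0 < c := Real.rpow_pos_of_pos habs _
  have hcn : c ^ n = |(embMatrix D).det|⁻¹ := by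
    have hn : (n : ℝ) ≠ 0 := Nat.cast_ne_zero.2 (NeZero.ne n)
    rw [← Real.rpow_natCast, ← Real.rpow_mul habs.le, div_mul_cancel₀ _ hn, Real.rpow_neg_one]
  let G : Matrix (Fin n) (Fin n) ℝ := c • (embMatrix D * Matrix.diagonal w)
  have hG : G.det = 1 := by
    rw [Matrix.det_smul, Matrix.det_mul, Matrix.det_diagonal, Fintype.card_fin, hcn, hprod,
      mul_comm (embMatrix D).det s, hsd]
    exact inv_mul_cancel₀ habs.ne'
  have key : ∀ (a : Fin n → ℤ) (j : Fin n),
      Matrix.vecMul (fun i => (a i : ℝ)) G j
        = c * D.σ j (∑ i, a i • D.basis i) * w j * Real.exp ((0 : Fin n → ℝ) j) := by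
    intro a j
    have h1 : ∀ i, G i j = c * (D.σ j (D.basis i) * w j) := by
      intro i
      simp only [G, Matrix.smul_apply, Matrix.mul_diagonal, smul_eq_mul, embMatrix, Matrix.of_apply]
    simp only [Matrix.vecMul, dotProduct, h1, map_sum, zsmul_eq_mul, Pi.zero_apply,
      Real.exp_zero, mul_one, Finset.mul_sum, Finset.sum_mul, map_mul, map_intCast]
    refine Finset.sum_congr rfl fun i _ => ?_
    ring
  refine ⟨cls ⟨G, hG⟩, ⟨G, hG⟩, D.O.toAddSubgroup, c, w, 0, rfl, isProperInvertibleIdeal_self D.O,
    hc, hw, by simp, ?_⟩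
  ext v
  unfold rowLattice
  rw [Set.mem_range]
  constructor
  · rintro ⟨a, rfl⟩
    refine ⟨∑ i, a i • D.basis i, (D.mem_O_iff _).2 ⟨a, rfl⟩, ?_⟩
    funext j
    exact key a j
  · rintro ⟨y, hy, rfl⟩
    obtain ⟨a, rfl⟩ := (D.mem_O_iff y).1 hy
    refine ⟨a, ?_⟩
    funext j
    exact key a j

end Vale.Agent.Lib.P007
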