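import Vale.Agent.Lib.P007.helper59.Maximal

namespace Vale.Agent.Lib.P007

open Polynomial NumberField

/-- `f_{p,d,e} = ∏_{j=1}^{d} (x - p (16 e + 16) j)`. -/
noncomputable def scaleF (p d e : ℕ) : Polynomial ℤ :=
  ∏ j ∈ Finset.range d,
    ((Polynomial.X : Polynomial ℤ) - Polynomial.C ((p * ((16 * e + 16) * (j + 1)) : ℕ) : ℤ))

/-- `h_{p,d,e} = g_{p,e} ∘ f_{p,d,e}`, so that `h_{p,d,e}(x) = p^e g_e(f_{p,d,e}(x) / p)`. -/
noncomputable def maxHC (p d e : ℕ) : Polynomial ℤ := (scaleG p e).comp (scaleF p d e)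

theorem scaleF_monic (p d e : ℕ) : (scaleF p d e).Monic :=
  monic_prod_of_monic _ _ fun _ _ => monic_X_sub_C _

theorem scaleF_natDegree (p d e : ℕ) : (scaleF p d e).natDegree = d := by
  unfold scaleF
  rw [natDegree_prod_of_monic _ _ fun _ _ => monic_X_sub_C _]
  simp only [natDegree_X_sub_C, Finset.sum_const, Finset.card_range, smul_eq_mul, mul_one]

theorem scaleF_map (p d e : ℕ) :
    (scaleF p d e).map (Int.castRingHom (ZMod 2)) = (Polynomial.X : Polynomial (ZMod 2)) ^ d := by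
  unfold scaleF
  rw [Polynomial.map_prod]
  have h : ∀ j ∈ Finset.range d,
      ((Polynomial.X : Polynomial ℤ) -
        Polynomial.C ((p * ((16 * e + 16) * (j + 1)) : ℕ) : ℤ)).map
        (Int.castRingHom (ZMod 2)) = (Polynomial.X : Polynomial (ZMod 2)) := by
    intro j _
    rw [Polynomial.map_sub, map_X, map_C]
    have h0 : (Int.castRingHom (ZMod 2)) ((p * ((16 * e + 16) * (j + 1)) : ℕ) : ℤ) = 0 := by
      rw [eq_intCast, Int.cast_natCast, ZMod.natCast_eq_zero_iff]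
      exact ⟨p * ((8 * e + 8) * (j + 1)), by ring⟩
    rw [h0, C_0, sub_zero]
  rw [Finset.prod_congr rfl h, Finset.prod_const, Finset.card_range]

theorem maxHC_monic (p d e : ℕ) (hd : 1 ≤ d) (he : 1 ≤ e) : (maxHC p d e).Monic := by
  unfold maxHC
  refine (scaleG_monic p e he).comp (scaleF_monic p d e) ?_
  rw [scaleF_natDegree]
  omega

theorem maxHC_natDegree (p d e : ℕ) : (maxHC p d e).natDegree = e * d := by
  unfold maxHC
  rw [natDegree_comp, scaleG_natDegree, scaleF_natDegree]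

theorem maxHC_map (p d e : ℕ) :
    (maxHC p d e).map (Int.castRingHom (ZMod 2)) =
      (Polynomial.X : Polynomial (ZMod 2)) ^ (e * d) := by
  unfold maxHC
  rw [map_comp, scaleG_map, scaleF_map, X_pow_comp, ← pow_mul, mul_comm]

theorem four_dvd_scaleF_eval_zero (p d e : ℕ) (hd : 1 ≤ d) :
    (4 : ℤ) ∣ (scaleF p d e).eval 0 := by
  unfold scaleF
  rw [eval_prod]
  refine dvd_trans ?_ (Finset.dvd_prod_of_mem _ (Finset.mem_range.mpr hd))
  simp only [eval_sub, eval_X, eval_C]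
  refine ⟨-(p * (4 * e + 4)), ?_⟩
  push_cast
  ring

theorem maxHC_coeff_zero (p d e : ℕ) (hp : Odd p) (hd : 1 ≤ d) (he : 1 ≤ e) :
    ¬ (4 : ℤ) ∣ (maxHC p d e).coeff 0 := by
  rw [coeff_zero_eq_eval_zero]
  unfold maxHC
  rw [eval_comp]
  obtain ⟨a, ha⟩ := four_dvd_scaleF_eval_zero p d e hd
  rw [ha]
  unfold scaleG
  rw [eval_add, eval_prod, eval_C]
  have h4 : (4 : ℤ) ∣ ∏ k ∈ Finset.range e,
      eval (4 * a) ((Polynomial.X : Polynomial ℤ) -
        Polynomial.C ((p * (8 * (k + 1)) : ℕ) : ℤ)) := by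
    refine dvd_trans ?_ (Finset.dvd_prod_of_mem _ (Finset.mem_range.mpr he))
    simp only [eval_sub, eval_X, eval_C]
    refine ⟨a - 2 * p, ?_⟩
    push_cast
    ring
  obtain ⟨b, hb⟩ := h4
  rw [hb]
  obtain ⟨m, hm⟩ := hp.pow (n := e)
  rw [hm]
  push_cast
  omega

theorem maxHC_irreducible (p d e : ℕ) (hp : Odd p) (hd : 1 ≤ d) (he : 1 ≤ e) :
    Irreducible ((maxHC p d e).map (Int.castRingHom ℚ)) :=
  irreducible_map_of_mod_two _ (maxHC_monic p d e hd he) (e * d) (maxHC_natDegree p d e)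
    (Nat.mul_pos (by omega) (by omega)) (maxHC_map p d e) (maxHC_coeff_zero p d e hp hd he)

theorem aeval_scaleF {A : Type} [CommRing A] (p d e : ℕ) (x : A) :
    aeval x (scaleF p d e) =
      ∏ j ∈ Finset.range d, (x - (p : A) * (((16 * e + 16) * (j + 1) : ℕ) : A)) := by
  unfold scaleF
  rw [map_prod]
  refine Finset.prod_congr rfl fun j _ => ?_
  rw [map_sub, aeval_X, aeval_C, eq_intCast]
  push_cast
  ring

theorem aeval_maxHC {A : Type} [CommRing A] (p d e : ℕ) (x y : A)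
    (hxy : aeval x (scaleF p d e) = (p : A) * y) :
    aeval x (maxHC p d e) = (p : A) ^ e * aeval y (towerG e) := by
  unfold maxHC
  rw [aeval_comp, hxy, aeval_scaleG]

theorem prod_sub_mul_eq {A : Type} [CommRing A] (x q : A) (m : ℕ → A) (k : ℕ) :
    ∃ c : A, ∏ j ∈ Finset.range k, (x - q * m j) = x ^ k + q * c := by
  induction k with
  | zero => exact ⟨0, by simp⟩
  | succ k ih =>
    obtain ⟨c, hc⟩ := ih
    refine ⟨c * x - m k * x ^ k - q * c * m k, ?_⟩
    rw [Finset.prod_range_succ, hc]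
    ring

/-- For `d ≥ 2`, `∏_{j<d} (x - q m_j) ≡ x^d` modulo `q (q, x)`. -/
theorem prod_sub_mul_eq' {A : Type} [CommRing A] (x q : A) (m : ℕ → A) (d : ℕ) (hd : 2 ≤ d) :
    ∃ a b : A, ∏ j ∈ Finset.range d, (x - q * m j) = x ^ d + q * (q * a + x * b) := by
  obtain ⟨k, rfl⟩ : ∃ k, d = k + 2 := ⟨d - 2, by omega⟩
  obtain ⟨c, hc⟩ := prod_sub_mul_eq x q m (k + 1)
  refine ⟨-(c * m (k + 1)), c - m (k + 1) * x ^ k, ?_⟩
  rw [Finset.prod_range_succ, hc]
  ring

/-- If `θ ^ d = p (y + p a + θ b)` in the ring of integers with `d ≥ 2`, where `y` is a root of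
an integer polynomial `g` whose constant term is prime to `p`, then `p` is ramified, hence
divides the discriminant. -/
theorem prime_dvd_discr_of_pow_eq {K : Type} [Field K] [NumberField K] (p : ℤ) (hp : Prime p)
    (d : ℕ) (hd : 2 ≤ d) (θ y a b : 𝓞 K) (g : Polynomial ℤ)
    (hθ : θ ^ d = (p : 𝓞 K) * (y + (p : 𝓞 K) * a + θ * b))
    (hy : Polynomial.aeval y g = 0)
    (hg : IsCoprime p (g.eval 0)) : p ∣ NumberField.discr K := by
  by_contra hnd
  have hunr := (NumberField.not_dvd_discr_iff_forall_mem K (𝓞 K) hp).1 hnd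
  have hmax : (Ideal.span {p} : Ideal ℤ).IsMaximal :=
    PrincipalIdealRing.isMaximal_of_irreducible hp.irreducible
  obtain ⟨P, hPmax, hPover⟩ := Ideal.exists_ideal_over_maximal_of_isIntegral (S := 𝓞 K)
    (Ideal.span {p}) (by
      rw [(RingHom.injective_iff_ker_eq_bot _).1 (FaithfulSMul.algebraMap_injective ℤ (𝓞 K))]
      exact bot_le)
  have hpP : (p : 𝓞 K) ∈ P := by
    have h1 : p ∈ P.comap (algebraMap ℤ (𝓞 K)) := hPover ▸ Ideal.mem_span_singleton_self p
    simpa using h1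
  have hP : P.IsPrime := hPmax.isPrime
  have hun : Algebra.IsUnramifiedAt ℤ P := hunr P hP hpP
  have hθP : θ ∈ P := hP.mem_of_pow_mem d (hθ ▸ P.mul_mem_right _ hpP)
  have hyP : y ∉ P := by
    intro hy'
    have h1 := Polynomial.sub_dvd_eval_sub y 0 (g.map (algebraMap ℤ (𝓞 K)))
    rw [sub_zero, Polynomial.eval_map_algebraMap, hy, zero_sub, dvd_neg,
      Polynomial.eval_map_algebraMap] at h1
    have h2 : Polynomial.aeval (0 : 𝓞 K) g ∈ P := by
      obtain ⟨c, hc⟩ := h1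
      rw [hc]
      exact P.mul_mem_right _ hy'
    have h3 : ((g.eval 0 : ℤ) : 𝓞 K) ∈ P := by
      have h4 : Polynomial.aeval (0 : 𝓞 K) g = ((g.eval 0 : ℤ) : 𝓞 K) := by
        have h7 := Polynomial.aeval_algebraMap_apply (𝓞 K) (0 : ℤ) g
        simpa using h7
      rwa [h4] at h2
    obtain ⟨u, v, huv⟩ := hg
    have h5 : (1 : 𝓞 K) ∈ P := by
      have h6 := congrArg (fun z : ℤ => (z : 𝓞 K)) huv
      simp only [Int.cast_add, Int.cast_mul, Int.cast_one] at h6
      rw [← h6]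
      exact P.add_mem (P.mul_mem_left _ hpP) (P.mul_mem_left _ h3)
    exact hP.ne_top ((Ideal.eq_top_iff_one _).2 h5)
  have huP : y + (p : 𝓞 K) * a + θ * b ∉ P := by
    intro hu
    apply hyP
    have h1 : y = (y + (p : 𝓞 K) * a + θ * b) - ((p : 𝓞 K) * a + θ * b) := by ring
    rw [h1]
    exact P.sub_mem hu (P.add_mem (P.mul_mem_right _ hpP) (P.mul_mem_right _ hθP))
  have hrad : (P ^ 2).radical = P := by
    rw [Ideal.radical_pow P two_ne_zero, hP.radical]
  have hsq : (p : 𝓞 K) ∈ P ^ 2 := by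
    have hmem : (p : 𝓞 K) * (y + (p : 𝓞 K) * a + θ * b) ∈ P ^ 2 := by
      rw [← hθ]
      exact Ideal.pow_le_pow_right hd (Ideal.pow_mem_pow hθP d)
    have hprim : (P ^ 2).IsPrimary :=
      Ideal.isPrimary_of_isMaximal_radical (by rw [hrad]; exact hPmax)
    rcases (Ideal.isPrimary_iff.1 hprim).2 hmem with h | h
    · exact h
    · rw [hrad] at h
      exact absurd h huP
  have : P.LiesOver (Ideal.span {p}) := ⟨hPover.symm⟩
  have h1 : P.ramificationIdx ℤ = 1 := Ideal.ramificationIdx_eq_one P ℤ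
  have h2 : (Ideal.span {p}).ramificationIdx' P = P.ramificationIdx ℤ :=
    Ideal.ramificationIdx'_eq_ramificationIdx _ _ (by simpa using hp.ne_zero)
  have hle : Ideal.map (algebraMap ℤ (𝓞 K)) (Ideal.span {p}) ≤ P := by
    rw [Ideal.map_span, Set.image_singleton, Ideal.span_singleton_le_iff_mem]
    simpa using hpP
  have h3 := (Ideal.ramificationIdx'_ne_one_iff hle).2 (by
    rw [Ideal.map_span, Set.image_singleton, Ideal.span_singleton_le_iff_mem]
    simpa using hsq)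
  exact h3 (h2.trans h1)

/-- `h_{p,d,e}` has `e d` distinct real roots. -/
theorem exists_real_roots_maxHC (p d e : ℕ) (hp : 1 ≤ p) :
    ∃ ρ : Fin (e * d) → ℝ, Function.Injective ρ ∧ ∀ k, aeval (ρ k) (maxHC p d e) = 0 := by
  have hy : ∀ i : Fin e, ∃ y : ℝ, |y - 8 * (((i : ℕ) : ℝ) + 1)| < 8 / 2 ∧
      ∏ k ∈ Finset.range e, (y - 8 * ((k : ℝ) + 1)) = -2 :=
    fun i => exists_prod_eq_near 8 (by norm_num) (-2) (by norm_num) e i i.2
  choose y hy1 hy2 using hy
  have hp1 : (1 : ℝ) ≤ (p : ℝ) := by exact_mod_cast hp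
  have hp0 : (0 : ℝ) < (p : ℝ) := by linarith
  set N : ℝ := (p : ℝ) * (16 * (e : ℝ) + 16) with hN
  have he0 : (0 : ℝ) ≤ (e : ℝ) := Nat.cast_nonneg e
  have hNge : 2 ≤ N := by
    rw [hN]
    nlinarith
  have hNpos : 0 < N := by linarith
  have hybd : ∀ i : Fin e, |(p : ℝ) * y i| < N / 2 := by
    intro i
    have h1 := abs_lt.mp (hy1 i)
    have h2 : (((i : ℕ) : ℝ)) + 1 ≤ (e : ℝ) := by exact_mod_cast i.2
    have h3 : (0 : ℝ) ≤ ((i : ℕ) : ℝ) := Nat.cast_nonneg _
    have hlo : 0 < y i := by linarith [h1.1]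
    have hhi : y i < 8 * (e : ℝ) + 8 := by linarith [h1.2]
    have h4 : (p : ℝ) * y i < (p : ℝ) * (8 * (e : ℝ) + 8) := mul_lt_mul_of_pos_left hhi hp0
    have h5 : 0 < (p : ℝ) * y i := mul_pos hp0 hlo
    rw [abs_lt, hN]
    constructor <;> linarith
  have hξ : ∀ (i : Fin e) (l : Fin d), ∃ ξ : ℝ, |ξ - N * (((l : ℕ) : ℝ) + 1)| < N / 2 ∧
      ∏ j ∈ Finset.range d, (ξ - N * ((j : ℝ) + 1)) = (p : ℝ) * y i :=
    fun i l => exists_prod_eq_near N hNge _ (hybd i) d l l.2
  choose ξ hξ1 hξ2 using hξ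
  -- separation of indices from closeness of centres
  have hsep : ∀ (M : ℝ), 0 < M → ∀ a b : ℕ,
      |M * ((a : ℝ) + 1) - M * ((b : ℝ) + 1)| < M → a = b := by
    intro M hM a b hab
    have h := abs_lt.mp hab
    by_contra hne
    rcases Nat.lt_or_gt_of_ne hne with h1 | h1
    · have h2 : (a : ℝ) + 1 ≤ (b : ℝ) := by exact_mod_cast h1
      nlinarith
    · have h2 : (b : ℝ) + 1 ≤ (a : ℝ) := by exact_mod_cast h1
      nlinarith
  have hfx : ∀ (i : Fin e) (l : Fin d), aeval (ξ i l) (scaleF p d e) = (p : ℝ) * y i := by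
    intro i l
    rw [aeval_scaleF, ← hξ2 i l]
    refine Finset.prod_congr rfl fun j _ => ?_
    rw [hN]
    push_cast
    ring
  refine ⟨fun k => ξ (finProdFinEquiv.symm k).1 (finProdFinEquiv.symm k).2, ?_, ?_⟩
  · intro k k' hkk
    simp only at hkk
    have hl : (finProdFinEquiv.symm k).2 = (finProdFinEquiv.symm k').2 := by
      have h1 := abs_lt.mp (hξ1 (finProdFinEquiv.symm k).1 (finProdFinEquiv.symm k).2)
      have h2 := abs_lt.mp (hξ1 (finProdFinEquiv.symm k').1 (finProdFinEquiv.symm k').2)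
      rw [hkk] at h1
      apply Fin.ext
      apply hsep N hNpos
      rw [abs_lt]
      constructor <;> linarith
    have hyy : y (finProdFinEquiv.symm k).1 = y (finProdFinEquiv.symm k').1 := by
      apply mul_left_cancel₀ hp0.ne'
      rw [← hξ2 (finProdFinEquiv.symm k).1 (finProdFinEquiv.symm k).2,
        ← hξ2 (finProdFinEquiv.symm k').1 (finProdFinEquiv.symm k').2, hkk]
    have hi : (finProdFinEquiv.symm k).1 = (finProdFinEquiv.symm k').1 := by
      have h1 := abs_lt.mp (hy1 (finProdFinEquiv.symm k).1)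
      have h2 := abs_lt.mp (hy1 (finProdFinEquiv.symm k').1)
      rw [hyy] at h1
      apply Fin.ext
      apply hsep 8 (by norm_num)
      rw [abs_lt]
      constructor <;> linarith
    exact finProdFinEquiv.symm.injective (Prod.ext hi hl)
  · intro k
    rw [aeval_maxHC p d e _ _ (hfx _ _), aeval_towerG, hy2]
    ring

/-- In a number field containing a root `θ` of `h_{p,d,e}`, the maximal order contains a root of
`towerG e`, and `p` divides the discriminant. -/
theorem maximal_datum_props_composite (d e : ℕ) (hd : 2 ≤ d) (he : 2 ≤ e) (p : ℕ)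
    (hp : p.Prime) (hpg : ¬ (p : ℤ) ∣ (towerG e).eval 0)
    (K : Type) [Field K] [NumberField K] (hn : Module.finrank ℚ K = e * d)
    (σ : Fin (e * d) → K →+* ℝ) (hσ : Function.Injective σ)
    (θ : K) (hθ : eval₂ (Int.castRingHom K) θ (maxHC p d e) = 0) :
    (∃ r ∈ (maximalDatum K (e * d) hn σ hσ).O, aeval r (towerG e) = 0) ∧
      (p : ℚ) ≤ |Algebra.discr ℚ (maximalDatum K (e * d) hn σ hσ).basis| := by
  have hh : (maxHC p d e).Monic := maxHC_monic p d e (by omega) (by omega)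
  have hθ' : aeval θ (maxHC p d e) = 0 := by
    rw [aeval_def]
    exact hθ
  have hp0 : ((p : ℕ) : K) ≠ 0 := Nat.cast_ne_zero.2 hp.ne_zero
  have hθy : aeval θ (scaleF p d e) =
      ((p : ℕ) : K) * (aeval θ (scaleF p d e) / ((p : ℕ) : K)) := by
    field_simp
  have hy0 : aeval (aeval θ (scaleF p d e) / ((p : ℕ) : K)) (towerG e) = 0 := by
    have h1 := aeval_maxHC p d e θ (aeval θ (scaleF p d e) / ((p : ℕ) : K)) hθy
    rw [hθ'] at h1
    exact (mul_eq_zero.1 h1.symm).resolve_left (pow_ne_zero _ hp0)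
  have hθint : IsIntegral ℤ θ := ⟨maxHC p d e, hh, hθ⟩
  have hyint : IsIntegral ℤ (aeval θ (scaleF p d e) / ((p : ℕ) : K)) :=
    ⟨towerG e, towerG_monic e (by omega), by rw [← aeval_def]; exact hy0⟩
  have hex : ∀ x : K, IsIntegral ℤ x → ∃ z : 𝓞 K, algebraMap (𝓞 K) K z = x :=
    fun x hx => ⟨⟨x, hx⟩, rfl⟩
  obtain ⟨θ', hθ'eq⟩ := hex θ hθint
  obtain ⟨y', hy'eq⟩ := hex _ hyint
  have hrel : aeval θ' (scaleF p d e) = ((p : ℕ) : 𝓞 K) * y' := by
    apply FaithfulSMul.algebraMap_injective (𝓞 K) K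
    rw [← aeval_algebraMap_apply, map_mul, map_natCast, hθ'eq, hy'eq]
    exact hθy
  obtain ⟨a, b, hab⟩ := prod_sub_mul_eq' θ' ((p : ℕ) : 𝓞 K)
    (fun j => (((16 * e + 16) * (j + 1) : ℕ) : 𝓞 K)) d hd
  rw [← aeval_scaleF, hrel] at hab
  have hdvd : (p : ℤ) ∣ NumberField.discr K := by
    refine prime_dvd_discr_of_pow_eq (p : ℤ) (Nat.prime_iff_prime_int.1 hp) d hd θ' y' (-a) (-b)
      (towerG e) ?_ ?_ ?_
    · rw [Int.cast_natCast]
      linear_combination (-1 : 𝓞 K) * hab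
    · apply FaithfulSMul.algebraMap_injective (𝓞 K) K
      rw [← aeval_algebraMap_apply, hy'eq, map_zero]
      exact hy0
    · exact (Nat.prime_iff_prime_int.1 hp).irreducible.coprime_iff_not_dvd.2 hpg
  refine ⟨⟨_, hyint, hy0⟩, ?_⟩
  rw [discr_maximalDatum]
  have h1 : (p : ℤ) ≤ |NumberField.discr K| :=
    Int.le_of_dvd (abs_pos.2 (NumberField.discr_ne_zero K)) ((dvd_abs _ _).2 hdvd)
  have h2 : ((p : ℤ) : ℚ) ≤ ((|NumberField.discr K| : ℤ) : ℚ) := Int.cast_le.2 h1
  simpa using h2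

/-- A single datum: the maximal order of the totally real field `ℚ[x]/(h_{p,d,e})` contains a
root of `towerG e`, and `p` divides its discriminant. -/
theorem exists_maximal_datum_composite (d e : ℕ) (hd : 2 ≤ d) (he : 2 ≤ e) (p : ℕ)
    (hp : p.Prime) (hp2 : p ≠ 2) (hpg : ¬ (p : ℤ) ∣ (towerG e).eval 0) :
    ∃ D : OrderDatum (e * d), (∀ x : D.K, x ∈ D.O ↔ IsIntegral ℤ x) ∧
      (∃ r ∈ D.O, aeval r (towerG e) = 0) ∧ (p : ℚ) ≤ |Algebra.discr ℚ D.basis| := by
  have hodd : Odd p := hp.odd_of_ne_two hp2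
  have hirr := maxHC_irreducible p d e hodd (by omega) (by omega)
  have : Fact (Irreducible ((maxHC p d e).map (Int.castRingHom ℚ))) := ⟨hirr⟩
  obtain ⟨ρ, hρ, hρ0⟩ := exists_real_roots_maxHC p d e hp.one_lt.le
  have hh : (maxHC p d e).Monic := maxHC_monic p d e (by omega) (by omega)
  have hnd := maxHC_natDegree p d e
  have hθ : eval₂ (Int.castRingHom (AdjoinRoot ((maxHC p d e).map (Int.castRingHom ℚ))))
      (AdjoinRoot.root ((maxHC p d e).map (Int.castRingHom ℚ))) (maxHC p d e) = 0 := by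
    have h1 := AdjoinRoot.eval₂_root ((maxHC p d e).map (Int.castRingHom ℚ))
    rw [eval₂_map] at h1
    have e1 : Int.castRingHom (AdjoinRoot ((maxHC p d e).map (Int.castRingHom ℚ))) =
        (AdjoinRoot.of ((maxHC p d e).map (Int.castRingHom ℚ))).comp (Int.castRingHom ℚ) :=
      RingHom.ext_int _ _
    rw [e1]
    exact h1
  have hfin : Module.finrank ℚ (AdjoinRoot ((maxHC p d e).map (Int.castRingHom ℚ))) =
      e * d := by
    have h1 := (AdjoinRoot.powerBasis hirr.ne_zero).finrank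
    rw [AdjoinRoot.powerBasis_dim, hh.natDegree_map, hnd] at h1
    convert h1
  have hσ0 : ∀ k, eval₂ (algebraMap ℚ ℝ) (ρ k) ((maxHC p d e).map (Int.castRingHom ℚ)) = 0 := by
    intro k
    have e2 : (algebraMap ℚ ℝ).comp (Int.castRingHom ℚ) = algebraMap ℤ ℝ :=
      RingHom.ext_int _ _
    rw [eval₂_map, e2, ← aeval_def]
    exact hρ0 k
  have hσinj : Function.Injective (fun k : Fin (e * d) =>
      AdjoinRoot.lift (algebraMap ℚ ℝ) (ρ k) (hσ0 k)) := by
    intro j k hjk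
    apply hρ
    have h1 := congrArg (fun φ : AdjoinRoot ((maxHC p d e).map (Int.castRingHom ℚ)) →+* ℝ =>
      φ (AdjoinRoot.root ((maxHC p d e).map (Int.castRingHom ℚ)))) hjk
    simpa [AdjoinRoot.lift_root] using h1
  obtain ⟨h1, h2⟩ := maximal_datum_props_composite d e hd he p hp hpg
    (AdjoinRoot ((maxHC p d e).map (Int.castRingHom ℚ))) hfin _ hσinj _ hθ
  exact ⟨maximalDatum (AdjoinRoot ((maxHC p d e).map (Int.castRingHom ℚ))) (e * d) hfin _ hσinj,
    fun x => Iff.rfl, h1, h2⟩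

/-- Maximal orders of totally real fields of every composite degree `n = e d`, all containing a
root of the fixed polynomial `towerG e`, with discriminants tending to infinity. -/
theorem exists_maximal_sequence_composite (d e : ℕ) (hd : 2 ≤ d) (he : 2 ≤ e) :
    ∃ D : ℕ → OrderDatum (e * d),
      (∀ i, ∀ x : (D i).K, x ∈ (D i).O ↔ IsIntegral ℤ x) ∧
      (∀ i, ∃ r ∈ (D i).O, Polynomial.aeval r (towerG e) = 0) ∧
      Filter.Tendsto (fun i => |Algebra.discr ℚ (D i).basis|) Filter.atTop Filter.atTop := by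
  have key : ∀ i : ℕ, ∃ D : OrderDatum (e * d), (∀ x : D.K, x ∈ D.O ↔ IsIntegral ℤ x) ∧
      (∃ r ∈ D.O, aeval r (towerG e) = 0) ∧ (i : ℚ) ≤ |Algebra.discr ℚ D.basis| := by
    intro i
    obtain ⟨p, hpge, hp⟩ := Nat.exists_infinite_primes (((towerG e).eval 0).natAbs + i + 3)
    have hg0 : (towerG e).eval 0 ≠ 0 := towerG_no_int_root e he 0
    obtain ⟨D, h1, h2, h3⟩ := exists_maximal_datum_composite d e hd he p hp (by omega) (by
      intro hdvd
      have h4 := Int.natAbs_dvd_natAbs.2 hdvd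
      rw [Int.natAbs_natCast] at h4
      have h5 := Nat.le_of_dvd (Int.natAbs_pos.2 hg0) h4
      omega)
    refine ⟨D, h1, h2, le_trans ?_ h3⟩
    exact_mod_cast (by omega : i ≤ p)
  choose D h1 h2 h3 using key
  exact ⟨D, h1, h2, Filter.tendsto_atTop_mono h3 tendsto_natCast_atTop_atTop⟩

end Vale.Agent.Lib.P007
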