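import Vale.Agent.Lib.P007.FamilyAlg
import Vale.Agent.Lib.P007.helper59.RealRoots

namespace Vale.Agent.Lib.P007

open Polynomial NumberField

/-- `g_{p,e} = ∏_{k=1}^{e} (y - 8 p k) + 2 p^e`: its roots are `p` times the roots of
`towerG e`. -/
noncomputable def scaleG (p e : ℕ) : Polynomial ℤ :=
  ∏ k ∈ Finset.range e,
    ((Polynomial.X : Polynomial ℤ) - Polynomial.C ((p * (8 * (k + 1)) : ℕ) : ℤ)) +
    Polynomial.C ((2 * p ^ e : ℕ) : ℤ)

/-- `h_{p,e}(x) = g_{p,e}(x^2) = p^e g_e(x^2 / p)`. -/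
noncomputable def maxH (p e : ℕ) : Polynomial ℤ :=
  (scaleG p e).comp ((Polynomial.X : Polynomial ℤ) ^ 2)

theorem scaleP_monic (p e : ℕ) :
    (∏ k ∈ Finset.range e,
      ((Polynomial.X : Polynomial ℤ) - Polynomial.C ((p * (8 * (k + 1)) : ℕ) : ℤ))).Monic :=
  monic_prod_of_monic _ _ fun _ _ => monic_X_sub_C _

theorem scaleP_natDegree (p e : ℕ) :
    (∏ k ∈ Finset.range e,
      ((Polynomial.X : Polynomial ℤ) - Polynomial.C ((p * (8 * (k + 1)) : ℕ) : ℤ))).natDegree
      = e := by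
  rw [natDegree_prod_of_monic _ _ fun _ _ => monic_X_sub_C _]
  simp only [natDegree_X_sub_C, Finset.sum_const, Finset.card_range, smul_eq_mul, mul_one]

theorem scaleG_natDegree (p e : ℕ) : (scaleG p e).natDegree = e := by
  unfold scaleG
  rw [natDegree_add_C, scaleP_natDegree]

theorem scaleG_monic (p e : ℕ) (he : 1 ≤ e) : (scaleG p e).Monic := by
  unfold scaleG
  refine (scaleP_monic p e).add_of_left ?_
  rw [degree_eq_natDegree (scaleP_monic p e).ne_zero, scaleP_natDegree]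
  refine lt_of_le_of_lt degree_C_le ?_
  exact_mod_cast he

theorem maxH_monic (p e : ℕ) (he : 1 ≤ e) : (maxH p e).Monic := by
  unfold maxH
  refine (scaleG_monic p e he).comp (monic_X_pow 2) ?_
  rw [natDegree_X_pow]
  norm_num

theorem maxH_natDegree (p e : ℕ) : (maxH p e).natDegree = e * 2 := by
  unfold maxH
  rw [natDegree_comp, scaleG_natDegree, natDegree_X_pow]

theorem scaleG_map (p e : ℕ) :
    (scaleG p e).map (Int.castRingHom (ZMod 2)) = (Polynomial.X : Polynomial (ZMod 2)) ^ e := by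
  unfold scaleG
  rw [Polynomial.map_add, Polynomial.map_prod]
  have h : ∀ k ∈ Finset.range e,
      ((Polynomial.X : Polynomial ℤ) - Polynomial.C ((p * (8 * (k + 1)) : ℕ) : ℤ)).map
        (Int.castRingHom (ZMod 2)) = (Polynomial.X : Polynomial (ZMod 2)) := by
    intro k _
    rw [Polynomial.map_sub, map_X, map_C]
    have h0 : (Int.castRingHom (ZMod 2)) ((p * (8 * (k + 1)) : ℕ) : ℤ) = 0 := by
      rw [eq_intCast, Int.cast_natCast, ZMod.natCast_eq_zero_iff]
      exact ⟨p * (4 * (k + 1)), by ring⟩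
    rw [h0, C_0, sub_zero]
  have h2 : (Polynomial.C ((2 * p ^ e : ℕ) : ℤ)).map (Int.castRingHom (ZMod 2)) = 0 := by
    rw [map_C]
    have h0 : (Int.castRingHom (ZMod 2)) ((2 * p ^ e : ℕ) : ℤ) = 0 := by
      rw [eq_intCast, Int.cast_natCast, ZMod.natCast_eq_zero_iff]
      exact ⟨p ^ e, rfl⟩
    rw [h0, C_0]
  rw [Finset.prod_congr rfl h, Finset.prod_const, Finset.card_range, h2, add_zero]

theorem maxH_map (p e : ℕ) :
    (maxH p e).map (Int.castRingHom (ZMod 2)) = (Polynomial.X : Polynomial (ZMod 2)) ^ (e * 2) := by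
  unfold maxH
  rw [map_comp, scaleG_map, Polynomial.map_pow, map_X, X_pow_comp, ← pow_mul, mul_comm]

theorem maxH_coeff_zero (p e : ℕ) (hp : Odd p) (he : 1 ≤ e) :
    ¬ (4 : ℤ) ∣ (maxH p e).coeff 0 := by
  rw [coeff_zero_eq_eval_zero]
  unfold maxH
  rw [eval_comp]
  simp only [eval_pow, eval_X]
  unfold scaleG
  rw [eval_add, eval_prod, eval_C]
  have h4 : (4 : ℤ) ∣ ∏ k ∈ Finset.range e,
      eval ((0 : ℤ) ^ 2) ((Polynomial.X : Polynomial ℤ) -
        Polynomial.C ((p * (8 * (k + 1)) : ℕ) : ℤ)) := by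
    refine dvd_trans ?_ (Finset.dvd_prod_of_mem _ (Finset.mem_range.mpr he))
    simp only [eval_sub, eval_X, eval_C]
    refine ⟨-(2 * p), ?_⟩
    push_cast
    ring
  obtain ⟨b, hb⟩ := h4
  rw [hb]
  obtain ⟨m, hm⟩ := hp.pow (n := e)
  rw [hm]
  push_cast
  omega

theorem maxH_irreducible (p e : ℕ) (hp : Odd p) (he : 1 ≤ e) :
    Irreducible ((maxH p e).map (Int.castRingHom ℚ)) :=
  irreducible_map_of_mod_two _ (maxH_monic p e he) (e * 2) (maxH_natDegree p e)
    (by omega) (maxH_map p e) (maxH_coeff_zero p e hp he)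

/-- The scaling identity `g_{p,e}(p y) = p^e g_e(y)`. -/
theorem aeval_scaleG {A : Type} [CommRing A] (p e : ℕ) (y : A) :
    aeval ((p : A) * y) (scaleG p e) = (p : A) ^ e * aeval y (towerG e) := by
  unfold scaleG towerG
  rw [map_add, map_add, map_prod, map_prod, aeval_C, aeval_C, mul_add]
  have h : ∀ k ∈ Finset.range e,
      aeval ((p : A) * y) ((Polynomial.X : Polynomial ℤ) - C ((p * (8 * (k + 1)) : ℕ) : ℤ)) =
        (p : A) * aeval y ((Polynomial.X : Polynomial ℤ) - C ((8 * (k + 1) : ℕ) : ℤ)) := by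
    intro k _
    rw [map_sub, map_sub, aeval_X, aeval_X, aeval_C, aeval_C, eq_intCast, eq_intCast]
    push_cast
    ring
  rw [Finset.prod_congr rfl h, Finset.prod_mul_distrib, Finset.prod_const, Finset.card_range]
  congr 1
  rw [eq_intCast, eq_intCast]
  push_cast
  ring

/-- Real values of `h_{p,e}`. -/
theorem aeval_maxH_real (p e : ℕ) (x : ℝ) :
    aeval x (maxH p e) = aeval (x ^ 2) (scaleG p e) := by
  unfold maxH
  rw [aeval_comp, map_pow, aeval_X]

theorem aeval_maxH {A : Type} [CommRing A] (p e : ℕ) (x y : A) (hxy : x ^ 2 = (p : A) * y) :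
    aeval x (maxH p e) = (p : A) ^ e * aeval y (towerG e) := by
  unfold maxH
  rw [aeval_comp, map_pow, aeval_X, hxy, aeval_scaleG]

/-- `h_{p,e}` has `2 e` distinct real roots `± √(p y_i)`. -/
theorem exists_real_roots_maxH (p e : ℕ) (hp : 1 ≤ p) :
    ∃ ρ : Fin (e * 2) → ℝ, Function.Injective ρ ∧ ∀ k, aeval (ρ k) (maxH p e) = 0 := by
  have hy : ∀ i : Fin e, ∃ y : ℝ, |y - 8 * (((i : ℕ) : ℝ) + 1)| < 8 / 2 ∧
      ∏ k ∈ Finset.range e, (y - 8 * ((k : ℝ) + 1)) = -2 :=
    fun i => exists_prod_eq_near 8 (by norm_num) (-2) (by norm_num) e i i.2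
  choose y hy1 hy2 using hy
  have hp0 : (0 : ℝ) < (p : ℝ) := by exact_mod_cast hp
  have hypos : ∀ i : Fin e, 0 < y i := by
    intro i
    have h1 := abs_lt.1 (hy1 i)
    have h2 : (0 : ℝ) ≤ ((i : ℕ) : ℝ) := Nat.cast_nonneg _
    linarith [h1.1]
  have hyinj : ∀ i j : Fin e, y i = y j → i = j := by
    intro i j hij
    have h1 := abs_lt.1 (hy1 i)
    have h2 := abs_lt.1 (hy1 j)
    rw [hij] at h1
    have h3 : (((i : ℕ) : ℝ) - ((j : ℕ) : ℝ)) < 1 := by linarith [h1.1, h2.2]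
    have h4 : (((j : ℕ) : ℝ) - ((i : ℕ) : ℝ)) < 1 := by linarith [h1.2, h2.1]
    have h5 : ((i : ℕ) : ℝ) < ((j : ℕ) : ℝ) + 1 := by linarith
    have h6 : ((j : ℕ) : ℝ) < ((i : ℕ) : ℝ) + 1 := by linarith
    have h7 : (i : ℕ) < (j : ℕ) + 1 := by exact_mod_cast h5
    have h8 : (j : ℕ) < (i : ℕ) + 1 := by exact_mod_cast h6
    exact Fin.ext (by omega)
  have hroot : ∀ (i : Fin e) (x : ℝ), x ^ 2 = (p : ℝ) * y i → aeval x (maxH p e) = 0 := by
    intro i x hx
    rw [aeval_maxH p e x (y i) hx, aeval_towerG, hy2 i]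
    ring
  let sg : Fin 2 → ℝ := fun s => if s = 0 then -1 else 1
  have hsg : ∀ s, sg s ^ 2 = 1 := by
    intro s
    by_cases h : s = 0 <;> simp [sg, h]
  have hsginj : ∀ s t : Fin 2, sg s = sg t → s = t := by
    intro s t hst
    fin_cases s <;> fin_cases t <;> simp [sg] at hst ⊢ <;> norm_num at hst
  refine ⟨fun k => sg (finProdFinEquiv.symm k).2 * Real.sqrt ((p : ℝ) * y (finProdFinEquiv.symm k).1),
    ?_, ?_⟩
  · intro k k' hkk
    simp only at hkk
    have hpos : ∀ i : Fin e, 0 < Real.sqrt ((p : ℝ) * y i) := fun i =>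
      Real.sqrt_pos.2 (mul_pos hp0 (hypos i))
    have hsq := congrArg (fun t : ℝ => t ^ 2) hkk
    simp only [mul_pow, hsg, one_mul] at hsq
    rw [Real.sq_sqrt (mul_pos hp0 (hypos _)).le, Real.sq_sqrt (mul_pos hp0 (hypos _)).le] at hsq
    have h1 : (finProdFinEquiv.symm k).1 = (finProdFinEquiv.symm k').1 :=
      hyinj _ _ (mul_left_cancel₀ hp0.ne' hsq)
    rw [h1] at hkk
    have h2 : (finProdFinEquiv.symm k).2 = (finProdFinEquiv.symm k').2 :=
      hsginj _ _ (mul_right_cancel₀ (hpos _).ne' hkk)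
    exact finProdFinEquiv.symm.injective (Prod.ext h1 h2)
  · intro k
    apply hroot (finProdFinEquiv.symm k).1
    rw [mul_pow, hsg, one_mul, Real.sq_sqrt (mul_pos hp0 (hypos _)).le]

/-- If `θ ^ 2 = p y` in the ring of integers, where `y` is a root of an integer polynomial `g`
whose constant term is prime to `p`, then `p` is ramified, hence divides the discriminant. -/
theorem prime_dvd_discr_of_sq_eq {K : Type} [Field K] [NumberField K] (p : ℤ) (hp : Prime p)
    (θ y : 𝓞 K) (g : Polynomial ℤ) (hθ : θ ^ 2 = (p : 𝓞 K) * y) (hy : Polynomial.aeval y g = 0)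
    (hg : IsCoprime p (g.eval 0)) : p ∣ NumberField.discr K := by
  by_contra hnd
  have hunr := (NumberField.not_dvd_discr_iff_forall_mem K (𝓞 K) hp).1 hnd
  have hmax : (Ideal.span {p} : Ideal ℤ).IsMaximal :=
    PrincipalIdealRing.isMaximal_of_irreducible hp.irreducible
  obtain ⟨P, hPmax, hPover⟩ := Ideal.exists_ideal_over_maximal_of_isIntegral (S := 𝓞 K)
    (Ideal.span {p}) (by
      rw [(RingHom.injective_iff_ker_eq_bot _).1 (FaithfulSMul.algebraMap_injective ℤ (𝓞 K))]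
      exact bot_le)
  have hpP : (p : 𝓞 K) ∈ P := by
    have h1 : p ∈ P.comap (algebraMap ℤ (𝓞 K)) := hPover ▸ Ideal.mem_span_singleton_self p
    simpa using h1
  have hP : P.IsPrime := hPmax.isPrime
  have hun : Algebra.IsUnramifiedAt ℤ P := hunr P hP hpP
  have hθP : θ ∈ P := hP.mem_of_pow_mem 2 (hθ ▸ P.mul_mem_right _ hpP)
  have hyP : y ∉ P := by
    intro hy'
    have h1 := Polynomial.sub_dvd_eval_sub y 0 (g.map (algebraMap ℤ (𝓞 K)))
    rw [sub_zero, Polynomial.eval_map_algebraMap, hy, zero_sub, dvd_neg,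
      Polynomial.eval_map_algebraMap] at h1
    have h2 : Polynomial.aeval (0 : 𝓞 K) g ∈ P := by
      obtain ⟨c, hc⟩ := h1
      rw [hc]
      exact P.mul_mem_right _ hy'
    have h3 : ((g.eval 0 : ℤ) : 𝓞 K) ∈ P := by
      have h4 : Polynomial.aeval (0 : 𝓞 K) g = ((g.eval 0 : ℤ) : 𝓞 K) := by
        have h7 := Polynomial.aeval_algebraMap_apply (𝓞 K) (0 : ℤ) g
        simpa using h7
      rwa [h4] at h2
    obtain ⟨a, b, hab⟩ := hg
    have h5 : (1 : 𝓞 K) ∈ P := by
      have h6 := congrArg (fun z : ℤ => (z : 𝓞 K)) hab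
      simp only [Int.cast_add, Int.cast_mul, Int.cast_one] at h6
      rw [← h6]
      exact P.add_mem (P.mul_mem_left _ hpP) (P.mul_mem_left _ h3)
    exact hP.ne_top ((Ideal.eq_top_iff_one _).2 h5)
  have hrad : (P ^ 2).radical = P := by
    rw [Ideal.radical_pow P two_ne_zero, hP.radical]
  have hsq : (p : 𝓞 K) ∈ P ^ 2 := by
    have hmem : (p : 𝓞 K) * y ∈ P ^ 2 := by
      rw [← hθ]
      exact Ideal.pow_mem_pow hθP 2
    have hprim : (P ^ 2).IsPrimary :=
      Ideal.isPrimary_of_isMaximal_radical (by rw [hrad]; exact hPmax)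
    rcases (Ideal.isPrimary_iff.1 hprim).2 hmem with h | h
    · exact h
    · rw [hrad] at h
      exact absurd h hyP
  have : P.LiesOver (Ideal.span {p}) := ⟨hPover.symm⟩
  have h1 : P.ramificationIdx ℤ = 1 := Ideal.ramificationIdx_eq_one P ℤ
  have h2 : (Ideal.span {p}).ramificationIdx' P = P.ramificationIdx ℤ :=
    Ideal.ramificationIdx'_eq_ramificationIdx _ _ (by simpa using hp.ne_zero)
  have hle : Ideal.map (algebraMap ℤ (𝓞 K)) (Ideal.span {p}) ≤ P := by
    rw [Ideal.map_span, Set.image_singleton, Ideal.span_singleton_le_iff_mem]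
    simpa using hpP
  have h3 := (Ideal.ramificationIdx'_ne_one_iff hle).2 (by
    rw [Ideal.map_span, Set.image_singleton, Ideal.span_singleton_le_iff_mem]
    simpa using hsq)
  exact h3 (h2.trans h1)

/-- The maximal order of a number field with `n` distinct real embeddings, as an order datum:
`O` is the integral closure of `ℤ`, with an integral basis. -/
noncomputable def maximalDatum (K : Type) [Field K] [NumberField K] (n : ℕ)
    (hn : Module.finrank ℚ K = n) (σ : Fin n → K →+* ℝ) (hσ : Function.Injective σ) :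
    OrderDatum n where
  K := K
  finrank_eq := hn
  σ := σ
  σ_injective := hσ
  O := (integralClosure ℤ K).toSubring
  basis := fun k => algebraMap (𝓞 K) K
    (Module.finBasisOfFinrankEq ℤ (𝓞 K) ((RingOfIntegers.rank K).trans hn) k)
  basis_indep :=
    (Module.finBasisOfFinrankEq ℤ (𝓞 K) ((RingOfIntegers.rank K).trans hn)).linearIndependent.map'
      ((Algebra.linearMap (𝓞 K) K).restrictScalars ℤ)
      (LinearMap.ker_eq_bot.2 (FaithfulSMul.algebraMap_injective (𝓞 K) K))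
  mem_O_iff := by
    intro x
    constructor
    · intro hx
      have hx' : IsIntegral ℤ x := hx
      have h1 := (Module.finBasisOfFinrankEq ℤ (𝓞 K) ((RingOfIntegers.rank K).trans hn)).sum_repr
        (⟨x, hx'⟩ : 𝓞 K)
      refine ⟨fun j => (Module.finBasisOfFinrankEq ℤ (𝓞 K)
        ((RingOfIntegers.rank K).trans hn)).repr (⟨x, hx'⟩ : 𝓞 K) j, ?_⟩
      have h2 := congrArg (algebraMap (𝓞 K) K) h1
      rw [map_sum] at h2
      simp only [map_zsmul] at h2
      exact h2.symm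
    · rintro ⟨c, rfl⟩
      refine Subring.sum_mem _ fun j _ => zsmul_mem ?_ _
      exact RingOfIntegers.isIntegral_coe _

theorem mem_maximalDatum_O (K : Type) [Field K] [NumberField K] (n : ℕ)
    (hn : Module.finrank ℚ K = n) (σ : Fin n → K →+* ℝ) (hσ : Function.Injective σ) (x : K) :
    x ∈ (maximalDatum K n hn σ hσ).O ↔ IsIntegral ℤ x := Iff.rfl

theorem discr_maximalDatum (K : Type) [Field K] [NumberField K] (n : ℕ)
    (hn : Module.finrank ℚ K = n) (σ : Fin n → K →+* ℝ) (hσ : Function.Injective σ) :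
    Algebra.discr ℚ (maximalDatum K n hn σ hσ).basis = (NumberField.discr K : ℚ) := by
  have h1 := Algebra.discr_localizationLocalization (Rₘ := ℚ) ℤ (nonZeroDivisors ℤ) K
    (Module.finBasisOfFinrankEq ℤ (𝓞 K) ((RingOfIntegers.rank K).trans hn))
  rw [NumberField.discr_eq_discr] at h1
  rw [eq_intCast] at h1
  rw [← h1]
  congr 1
  funext k
  simp [maximalDatum]

/-- In a number field containing a root `θ` of `h_{p,e}`, the maximal order contains a root of
`towerG e`, and `p` divides the discriminant. -/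
theorem maximal_datum_props (e : ℕ) (he : 2 ≤ e) (p : ℕ) (hp : p.Prime)
    (hpg : ¬ (p : ℤ) ∣ (towerG e).eval 0)
    (K : Type) [Field K] [NumberField K] (hn : Module.finrank ℚ K = e * 2)
    (σ : Fin (e * 2) → K →+* ℝ) (hσ : Function.Injective σ)
    (θ : K) (hθ : eval₂ (Int.castRingHom K) θ (maxH p e) = 0) :
    (∃ r ∈ (maximalDatum K (e * 2) hn σ hσ).O, aeval r (towerG e) = 0) ∧
      (p : ℚ) ≤ |Algebra.discr ℚ (maximalDatum K (e * 2) hn σ hσ).basis| := by
  have hh : (maxH p e).Monic := maxH_monic p e (by omega)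
  have hθ' : aeval θ (maxH p e) = 0 := by
    rw [aeval_def]
    exact hθ
  have hp0 : ((p : ℕ) : K) ≠ 0 := Nat.cast_ne_zero.2 hp.ne_zero
  have hθy : θ ^ 2 = ((p : ℕ) : K) * (θ ^ 2 / ((p : ℕ) : K)) := by
    field_simp
  have hy0 : aeval (θ ^ 2 / ((p : ℕ) : K)) (towerG e) = 0 := by
    have h1 := aeval_maxH p e θ (θ ^ 2 / ((p : ℕ) : K)) hθy
    rw [hθ'] at h1
    exact (mul_eq_zero.1 h1.symm).resolve_left (pow_ne_zero _ hp0)
  have hθint : IsIntegral ℤ θ := ⟨maxH p e, hh, hθ⟩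
  have hyint : IsIntegral ℤ (θ ^ 2 / ((p : ℕ) : K)) :=
    ⟨towerG e, towerG_monic e (by omega), by rw [← aeval_def]; exact hy0⟩
  have hex : ∀ x : K, IsIntegral ℤ x → ∃ z : 𝓞 K, algebraMap (𝓞 K) K z = x :=
    fun x hx => ⟨⟨x, hx⟩, rfl⟩
  obtain ⟨θ', hθ'eq⟩ := hex θ hθint
  obtain ⟨y', hy'eq⟩ := hex _ hyint
  have hdvd : (p : ℤ) ∣ NumberField.discr K := by
    refine prime_dvd_discr_of_sq_eq (p : ℤ) (Nat.prime_iff_prime_int.1 hp) θ' y'
      (towerG e) ?_ ?_ ?_
    · apply FaithfulSMul.algebraMap_injective (𝓞 K) K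
      rw [map_pow, map_mul, map_intCast, hθ'eq, hy'eq, Int.cast_natCast]
      exact hθy
    · apply FaithfulSMul.algebraMap_injective (𝓞 K) K
      rw [← aeval_algebraMap_apply, hy'eq, map_zero]
      exact hy0
    · exact (Nat.prime_iff_prime_int.1 hp).irreducible.coprime_iff_not_dvd.2 hpg
  refine ⟨⟨_, hyint, hy0⟩, ?_⟩
  rw [discr_maximalDatum]
  have h1 : (p : ℤ) ≤ |NumberField.discr K| :=
    Int.le_of_dvd (abs_pos.2 (NumberField.discr_ne_zero K)) ((dvd_abs _ _).2 hdvd)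
  have h2 : ((p : ℤ) : ℚ) ≤ ((|NumberField.discr K| : ℤ) : ℚ) := Int.cast_le.2 h1
  simpa using h2

/-- A single datum: the maximal order of the totally real field `ℚ[x]/(h_{p,e})` contains a root
of `towerG e`, and `p` divides its discriminant. -/
theorem exists_maximal_datum (e : ℕ) (he : 2 ≤ e) (p : ℕ) (hp : p.Prime) (hp2 : p ≠ 2)
    (hpg : ¬ (p : ℤ) ∣ (towerG e).eval 0) :
    ∃ D : OrderDatum (e * 2), (∀ x : D.K, x ∈ D.O ↔ IsIntegral ℤ x) ∧
      (∃ r ∈ D.O, aeval r (towerG e) = 0) ∧ (p : ℚ) ≤ |Algebra.discr ℚ D.basis| := by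
  have hodd : Odd p := hp.odd_of_ne_two hp2
  have hirr := maxH_irreducible p e hodd (by omega)
  have : Fact (Irreducible ((maxH p e).map (Int.castRingHom ℚ))) := ⟨hirr⟩
  obtain ⟨ρ, hρ, hρ0⟩ := exists_real_roots_maxH p e hp.one_lt.le
  have hh : (maxH p e).Monic := maxH_monic p e (by omega)
  have hnd := maxH_natDegree p e
  have hθ : eval₂ (Int.castRingHom (AdjoinRoot ((maxH p e).map (Int.castRingHom ℚ))))
      (AdjoinRoot.root ((maxH p e).map (Int.castRingHom ℚ))) (maxH p e) = 0 := by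
    have h1 := AdjoinRoot.eval₂_root ((maxH p e).map (Int.castRingHom ℚ))
    rw [eval₂_map] at h1
    have e1 : Int.castRingHom (AdjoinRoot ((maxH p e).map (Int.castRingHom ℚ))) =
        (AdjoinRoot.of ((maxH p e).map (Int.castRingHom ℚ))).comp (Int.castRingHom ℚ) :=
      RingHom.ext_int _ _
    rw [e1]
    exact h1
  have hfin : Module.finrank ℚ (AdjoinRoot ((maxH p e).map (Int.castRingHom ℚ))) = e * 2 := by
    have h1 := (AdjoinRoot.powerBasis hirr.ne_zero).finrank
    rw [AdjoinRoot.powerBasis_dim, hh.natDegree_map, hnd] at h1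
    convert h1
  have hσ0 : ∀ k, eval₂ (algebraMap ℚ ℝ) (ρ k) ((maxH p e).map (Int.castRingHom ℚ)) = 0 := by
    intro k
    have e2 : (algebraMap ℚ ℝ).comp (Int.castRingHom ℚ) = algebraMap ℤ ℝ :=
      RingHom.ext_int _ _
    rw [eval₂_map, e2, ← aeval_def]
    exact hρ0 k
  have hσinj : Function.Injective (fun k : Fin (e * 2) =>
      AdjoinRoot.lift (algebraMap ℚ ℝ) (ρ k) (hσ0 k)) := by
    intro j k hjk
    apply hρ
    have h1 := congrArg (fun φ : AdjoinRoot ((maxH p e).map (Int.castRingHom ℚ)) →+* ℝ =>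
      φ (AdjoinRoot.root ((maxH p e).map (Int.castRingHom ℚ)))) hjk
    simpa [AdjoinRoot.lift_root] using h1
  obtain ⟨h1, h2⟩ := maximal_datum_props e he p hp hpg
    (AdjoinRoot ((maxH p e).map (Int.castRingHom ℚ))) hfin _ hσinj _ hθ
  exact ⟨maximalDatum (AdjoinRoot ((maxH p e).map (Int.castRingHom ℚ))) (e * 2) hfin _ hσinj,
    fun x => Iff.rfl, h1, h2⟩

/-- Maximal orders of totally real fields of every even degree `2 e ≥ 4`, all containing a root
of the fixed polynomial `towerG e`, with discriminants tending to infinity. -/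
theorem exists_maximal_sequence (e : ℕ) (he : 2 ≤ e) :
    ∃ D : ℕ → OrderDatum (e * 2),
      (∀ i, ∀ x : (D i).K, x ∈ (D i).O ↔ IsIntegral ℤ x) ∧
      (∀ i, ∃ r ∈ (D i).O, Polynomial.aeval r (towerG e) = 0) ∧
      Filter.Tendsto (fun i => |Algebra.discr ℚ (D i).basis|) Filter.atTop Filter.atTop := by
  have key : ∀ i : ℕ, ∃ D : OrderDatum (e * 2), (∀ x : D.K, x ∈ D.O ↔ IsIntegral ℤ x) ∧
      (∃ r ∈ D.O, aeval r (towerG e) = 0) ∧ (i : ℚ) ≤ |Algebra.discr ℚ D.basis| := by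
    intro i
    obtain ⟨p, hpge, hp⟩ := Nat.exists_infinite_primes (((towerG e).eval 0).natAbs + i + 3)
    have hg0 : (towerG e).eval 0 ≠ 0 := towerG_no_int_root e he 0
    obtain ⟨D, h1, h2, h3⟩ := exists_maximal_datum e he p hp (by omega) (by
      intro hdvd
      have h4 := Int.natAbs_dvd_natAbs.2 hdvd
      rw [Int.natAbs_natCast] at h4
      have h5 := Nat.le_of_dvd (Int.natAbs_pos.2 hg0) h4
      omega)
    refine ⟨D, h1, h2, le_trans ?_ h3⟩
    exact_mod_cast (by omega : i ≤ p)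
  choose D h1 h2 h3 using key
  exact ⟨D, h1, h2, Filter.tendsto_atTop_mono h3 tendsto_natCast_atTop_atTop⟩

end Vale.Agent.Lib.P007
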